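import Vale.Agent.P150.Full.E.Pins

/-!
# P150 part E, E5: the one-step approximation of the critical point

`stepPhi` is the quadratic approximation of the displacement of the critical point when the
couplings fall by `δ` and the field moves by `d`.
-/

open Finset MeasureTheory Real Matrix
open Vale.Agent.P150.Fast
open Vale.Agent.P150.Beyond Vale.Agent.P150.Beyond.Stability
open Vale.Agent.P150.Full.T (hessMat resp)
open Vale.Agent.P150.Fast.Ent (mag)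

namespace Vale.Agent.P150.Full.E

variable {n : ℕ}

/-- Minus the derivative of the gradient in the strength. -/
noncomputable def thetaDir (θ : ℝ) (g : Edge n → ℝ) (x : Fin n → ℝ) (i : Fin n) : ℝ :=
  2 * θ * (1 - qOf x) * x i - couple g x i

/-- The first order displacement. -/
noncomputable def stepFirst (θ : ℝ) (g : Edge n → ℝ) (x d : Fin n → ℝ) : Fin n → ℝ :=
  resp θ g x *ᵥ d

/-- The right-hand side of the linearised equation, with the second order terms. -/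
noncomputable def stepRhs (θ : ℝ) (g : Edge n → ℝ) (x : Fin n → ℝ) (δ : ℝ) (d : Fin n → ℝ)
    (i : Fin n) : ℝ :=
  d i + δ * thetaDir θ g x i +
    θ ^ 2 / n * ((∑ j, stepFirst θ g x d j ^ 2) * x i +
      2 * (∑ j, x j * stepFirst θ g x d j) * stepFirst θ g x d i) -
    x i * (stepFirst θ g x d i / (1 - x i ^ 2)) ^ 2

/-- The approximate displacement. -/
noncomputable def stepPhi (θ : ℝ) (g : Edge n → ℝ) (x : Fin n → ℝ) (δ : ℝ) (d : Fin n → ℝ) :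
    Fin n → ℝ :=
  resp θ g x *ᵥ stepRhs θ g x δ d

/-- The change of the field caused by an increment of the observation. -/
noncomputable def fieldStep (A : Fin n → Fin n → ℝ) (W : Fin n → ℝ) (i : Fin n) : ℝ :=
  ∑ k, A i k * W k

/-- The part of the Hessian beside `1 / (1 - x²)`. -/
noncomputable def hessRest (θ : ℝ) (g : Edge n → ℝ) (x v : Fin n → ℝ) (i : Fin n) : ℝ :=
  θ ^ 2 * (1 - qOf x) * v i - θ * couple g v i - 2 * θ ^ 2 / n * (∑ j, x j * v j) * x i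

/-- Linear algebra at a point with a margin. -/
def RespLinear : Prop :=
  ∀ (n : ℕ) (θ γ : ℝ) (g : Edge n → ℝ) (x : Fin n → ℝ), 0 < n → 0 ≤ θ → θ ≤ 1 → 0 < γ → γ ≤ 1 →
    OpBound g 3 → (∀ i, |x i| < 1) →
    (∀ v, γ * ∑ i, v i ^ 2 ≤ Stability.hess θ g x v) →
      (resp θ g x).IsSymm ∧
      (∀ (v : Fin n → ℝ) i, (hessMat θ g x *ᵥ v) i = v i / (1 - x i ^ 2) + hessRest θ g x v i) ∧
      (∀ v : Fin n → ℝ, hessMat θ g x *ᵥ (resp θ g x *ᵥ v) = v ∧ resp θ g x *ᵥ (hessMat θ g x *ᵥ v) = v) ∧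
      (∀ v : Fin n → ℝ, √(∑ i, (resp θ g x *ᵥ v) i ^ 2) ≤ √(∑ i, v i ^ 2) / γ) ∧
      (∀ v : Fin n → ℝ, √(∑ i, hessRest θ g x v i ^ 2) ≤ 6 * √(∑ i, v i ^ 2)) ∧
      (∀ v : Fin n → ℝ, √(∑ i, ((resp θ g x *ᵥ v) i / (1 - x i ^ 2)) ^ 2) ≤ 7 / γ * √(∑ i, v i ^ 2)) ∧
      ∀ v : Fin n → ℝ, √(∑ i, (resp θ g x *ᵥ fun j => v j / (1 - x j ^ 2)) i ^ 2) ≤ 7 / γ * √(∑ i, v i ^ 2)

/-- The mean displacement over one step, and the size of the increments. -/
def StepDrift : Prop :=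
  ∀ γ c : ℝ, 0 < γ → γ ≤ 1 → 4 ≤ c → ∃ (K : ℝ) (p : ℕ), 0 < K ∧
    ∀ (n : ℕ) (g : Edge n → ℝ) (A : Fin n → Fin n → ℝ), 0 < n → OpBound g 3 →
      IsRoot (skMat n 1 g) c 3 A → ∀ (θ δ R : ℝ) (x y : Fin n → ℝ), 0 ≤ θ → θ ≤ 1 → 0 ≤ δ → δ ≤ 1 →
        (∀ i, |x i| < 1) → (∀ v, γ * ∑ i, v i ^ 2 ≤ Stability.hess θ g x v) → 0 ≤ R →
        ∑ i, (T.respK c θ g x i i / (1 - x i ^ 2) - (1 - x i ^ 2) *
          (c + 2 * θ * (1 - qOf x) + θ ^ 2 / n * Matrix.trace (T.respK c θ g x))) ^ 2 ≤ R →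
        let ν := weight (skMat n θ g) y
        (∀ i, ChInt ν A δ fun W => stepPhi θ g x δ (fieldStep A W) i) ∧
        √(∑ i, chE ν A δ (fun W => stepPhi θ g x δ (fieldStep A W) i) ^ 2) ≤
            δ * K * (√(∑ i, (mag (skMat n θ g) y i - x i) ^ 2) + √R + 1) + K * (n : ℝ) ^ p * δ ^ 2 ∧
        (ChInt ν A δ fun W => (∑ i, fieldStep A W i ^ 2) ^ 2) ∧
        chE ν A δ (fun W => (∑ i, fieldStep A W i ^ 2) ^ 2) ≤ K * (n : ℝ) ^ p * δ ^ 2

end Vale.Agent.P150.Full.E
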