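import Vale.Agent.P150.Full.E.Pins
import Vale.Agent.P150.Beyond.Stability.Convex

/-!
# P150 part E, E5: critical points with a margin

Strong monotonicity of the gradient of the tilted TAP free energy on a ball with a margin bounds the
distance of a point from a critical point there by its gradient.
-/

open Finset MeasureTheory Real
open Vale.Agent.P150.Fast
open Vale.Agent.P150.Beyond Vale.Agent.P150.Beyond.Stability
open Vale.Agent.P150.Fast.Ent (mag)

namespace Vale.Agent.P150.Full.E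

variable {n : ℕ}

/-- The gradient of the tilted TAP free energy. -/
noncomputable def gradTap (θ : ℝ) (g : Edge n → ℝ) (y x : Fin n → ℝ) (i : Fin n) : ℝ :=
  slope (x i) + θ ^ 2 * (1 - qOf x) * x i - θ * couple g x i - y i

/-- A critical point in the open cube. -/
def IsCrit (θ : ℝ) (g : Edge n → ℝ) (y x : Fin n → ℝ) : Prop :=
  (∀ i, |x i| < 1) ∧ ∀ i, gradTap θ g y x i = 0

theorem slope_tanh (h : ℝ) : slope (Real.tanh h) = h := by
  have hc := Real.cosh_pos h
  have e1 : 1 + Real.tanh h = Real.exp h / Real.cosh h := by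
    rw [Real.tanh_eq_sinh_div_cosh, eq_div_iff hc.ne', add_mul, div_mul_cancel₀ _ hc.ne', one_mul,
      Real.cosh_add_sinh]
  have e2 : 1 - Real.tanh h = Real.exp (-h) / Real.cosh h := by
    rw [Real.tanh_eq_sinh_div_cosh, eq_div_iff hc.ne', sub_mul, div_mul_cancel₀ _ hc.ne', one_mul,
      Real.cosh_sub_sinh]
  unfold Stability.slope
  rw [e1, e2, Real.log_div (Real.exp_ne_zero _) hc.ne', Real.log_div (Real.exp_ne_zero _) hc.ne',
    Real.log_exp, Real.log_exp]
  ring

/-- A zero of the residual in the fields is a critical point. -/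
theorem isCrit_of_critRes {θ : ℝ} {g : Edge n → ℝ} {y h : Fin n → ℝ}
    (hh : ∀ i, critRes θ g y h i = 0) : IsCrit θ g y (tanhVec h) :=
  ⟨fun i => Real.abs_tanh_lt_one (h i), fun i => by
    have := hh i
    simp only [critRes] at this
    simp only [gradTap, tanhVec, slope_tanh]
    exact this⟩

theorem tapD_eq_grad (θ : ℝ) (g : Edge n → ℝ) (y x d : Fin n → ℝ) (t : ℝ) :
    tapD θ g x d t = ∑ i, (gradTap θ g y (fun j => x j + t * d j) i + y i) * d i := by
  set z : Fin n → ℝ := fun j => x j + t * d j with hz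
  have hb : ∀ a : Fin n → ℝ, bil g a d = ∑ i, couple g a i * d i := fun a => by
    rw [bil_comm]
    simp only [bil, couple, Finset.sum_mul]
    exact Finset.sum_congr rfl fun i _ => Finset.sum_congr rfl fun j _ => by ring
  have hzd : ∑ i, couple g z i * d i = bil g x d + t * bil g d d := by
    rw [hb, hb, Finset.mul_sum, ← Finset.sum_add_distrib]
    refine Finset.sum_congr rfl fun i _ => ?_
    simp only [couple, hz, mul_add, Finset.sum_add_distrib, add_mul, Finset.sum_mul, Finset.mul_sum]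
    exact congrArg₂ (· + ·) rfl (Finset.sum_congr rfl fun j _ => by ring)
  have e : ∀ i, (gradTap θ g y z i + y i) * d i =
      slope (z i) * d i + θ ^ 2 * (1 - qOf z) * (z i * d i) - θ * (couple g z i * d i) := fun i => by
    simp only [gradTap]; ring
  simp only [e, Finset.sum_add_distrib, Finset.sum_sub_distrib, ← Finset.mul_sum, hzd, tapD, ← hz]
  ring

theorem sqrt_sum_add_le (a b : Fin n → ℝ) :
    √(∑ i, (a i + b i) ^ 2) ≤ √(∑ i, a i ^ 2) + √(∑ i, b i ^ 2) := by
  have hA : 0 ≤ ∑ i, a i ^ 2 := Finset.sum_nonneg fun i _ => sq_nonneg _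
  have hB : 0 ≤ ∑ i, b i ^ 2 := Finset.sum_nonneg fun i _ => sq_nonneg _
  rw [Real.sqrt_le_left (by positivity), add_sq, Real.sq_sqrt hA, Real.sq_sqrt hB]
  have := Real.sum_mul_le_sqrt_mul_sqrt univ a b
  simp only [add_sq, Finset.sum_add_distrib, mul_assoc, ← Finset.mul_sum]
  linarith

theorem sqrt_sum_smul (t : ℝ) (a : Fin n → ℝ) :
    √(∑ i, (t * a i) ^ 2) = |t| * √(∑ i, a i ^ 2) := by
  simp only [mul_pow, ← Finset.mul_sum]
  rw [Real.sqrt_mul (sq_nonneg t), Real.sqrt_sq_eq_abs]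

/-- Convexity of balls. -/
theorem segment_ball {m x x' : Fin n → ℝ} {R : ℝ} (hx : ∑ i, (x i - m i) ^ 2 ≤ R)
    (hx' : ∑ i, (x' i - m i) ^ 2 ≤ R) {t : ℝ} (h0 : 0 ≤ t) (h1 : t ≤ 1) :
    ∑ i, (x i + t * (x' i - x i) - m i) ^ 2 ≤ R := by
  have key : ∀ i, (x i + t * (x' i - x i) - m i) ^ 2 ≤
      (1 - t) * (x i - m i) ^ 2 + t * (x' i - m i) ^ 2 := fun i => by
    nlinarith [mul_nonneg (mul_nonneg h0 (sub_nonneg.2 h1)) (sq_nonneg (x' i - x i))]
  refine (Finset.sum_le_sum fun i _ => key i).trans ?_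
  rw [Finset.sum_add_distrib, ← Finset.mul_sum, ← Finset.mul_sum]
  nlinarith

/-- Strong monotonicity on a ball with a margin. -/
theorem grad_mono {θ γ r : ℝ} {g : Edge n → ℝ} {y m x x' : Fin n → ℝ}
    (hB : BallMargin θ g γ r m) (hx : ∀ i, |x i| < 1) (hx' : ∀ i, |x' i| < 1)
    (hd : ∑ i, (x i - m i) ^ 2 ≤ r * n) (hd' : ∑ i, (x' i - m i) ^ 2 ≤ r * n) :
    γ * ∑ i, (x' i - x i) ^ 2 ≤
      ∑ i, (gradTap θ g y x' i - gradTap θ g y x i) * (x' i - x i) := by
  set d : Fin n → ℝ := fun i => x' i - x i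
  have hin : ∀ t ∈ Set.Icc (0 : ℝ) 1, ∀ i, |x i + t * d i| < 1 :=
    fun t ht i => line_abs_lt (hx i) (hx' i) ht.1 ht.2
  obtain ⟨t, ht, he⟩ := exists_hasDerivAt_eq_slope (tapD θ g x d) _ zero_lt_one
    (fun t ht => (hasDerivAt_tapD θ g x d (hin t ht)).continuousAt.continuousWithinAt)
    (fun t ht => hasDerivAt_tapD θ g x d (hin t ⟨ht.1.le, ht.2.le⟩))
  have h := hB _ (hin t ⟨ht.1.le, ht.2.le⟩) (segment_ball hd hd' ht.1.le ht.2.le) d
  rw [he] at h
  rw [tapD_eq_grad θ g y, tapD_eq_grad θ g y] at h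
  simp only [sub_zero, div_one, one_mul, zero_mul, add_zero, d, add_sub_cancel, add_mul,
    Finset.sum_add_distrib] at h
  simp only [sub_mul, Finset.sum_sub_distrib]
  linarith

/-- A critical point in the ball is close to every point of the ball with small gradient. -/
theorem dist_crit_le {θ γ r : ℝ} {g : Edge n → ℝ} {y m x x' : Fin n → ℝ}
    (hB : BallMargin θ g γ r m) (hx : ∀ i, |x i| < 1) (hc : IsCrit θ g y x')
    (hd : ∑ i, (x i - m i) ^ 2 ≤ r * n) (hd' : ∑ i, (x' i - m i) ^ 2 ≤ r * n) :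
    γ * √(∑ i, (x' i - x i) ^ 2) ≤ √(∑ i, gradTap θ g y x i ^ 2) := by
  have h := grad_mono (y := y) hB hx hc.1 hd hd'
  simp only [hc.2, zero_sub] at h
  have hcs := Real.sum_mul_le_sqrt_mul_sqrt univ (fun i => -gradTap θ g y x i) (fun i => x' i - x i)
  simp only [neg_sq] at hcs
  set S := ∑ i, (x' i - x i) ^ 2 with hS
  set G := √(∑ i, gradTap θ g y x i ^ 2)
  have hS0 : 0 ≤ S := Finset.sum_nonneg fun i _ => sq_nonneg _
  rcases (Real.sqrt_nonneg S).eq_or_lt with e | e
  · rw [← e, mul_zero]; exact Real.sqrt_nonneg _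
  refine le_of_mul_le_mul_right (a := √S) ?_ e
  rw [mul_assoc, Real.mul_self_sqrt hS0]
  linarith

/-- What is used of a safe field: a margin around the magnetisations and a critical point there. -/
def Tracked (θ : ℝ) (g : Edge n → ℝ) (γ r : ℝ) (y : Fin n → ℝ) : Prop :=
  BallMargin θ g γ r (mag (skMat n θ g) y) ∧
    ∃ x, IsCrit θ g y x ∧ ∑ i, (x i - mag (skMat n θ g) y i) ^ 2 ≤ r / 64 * n

/-- A safe field stays tracked under perturbations, with magnetisations that move little. -/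
theorem SafeAt.tracked {θ γ r ε : ℝ} {g : Edge n → ℝ} {y : Fin n → ℝ} (hS : SafeAt θ g γ r ε y)
    {w : Fin n → ℝ} (hw : ∑ i, w i ^ 2 ≤ ε * n) :
    Tracked θ g γ r (fun i => y i + w i) ∧
      ∑ i, (mag (skMat n θ g) (fun i => y i + w i) i - mag (skMat n θ g) y i) ^ 2 ≤ r / 64 * n := by
  obtain ⟨h1, h2, h, h3, h4⟩ := hS w hw
  exact ⟨⟨h2, tanhVec h, isCrit_of_critRes h3, h4⟩, h1⟩

end Vale.Agent.P150.Full.E
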