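import Vale.Agent.P150.Full.E.Good.Defs
import Vale.Agent.P150.Full.E.Good.Root
import Vale.Agent.P150.Full.T.Cell.Expand

/-!
# P150 part E, E5: the displacement of a tracked critical point

Two critical points in a ball with a margin differ by `stepPhi` up to a third order term, which is
the cell expansion with an invisible penalty.
-/

open Finset Real Matrix
open Vale.Agent.P150.Fast
open Vale.Agent.P150.Beyond Vale.Agent.P150.Beyond.Stability
open Vale.Agent.P150.Full.T (hessMat resp)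
open Vale.Agent.P150.Full.T.Cell

namespace Vale.Agent.P150.Full.E

variable {n : ℕ} {θ γ δ r : ℝ} {g : Edge n → ℝ} {m y d x x' : Fin n → ℝ}

/-- Centred at a point of the cube, the penalty of radius one is invisible on the cube. -/
theorem penalty_off (hn : 0 < n) (hx : ∀ i, |x i| ≤ 1) (hx' : ∀ i, |x' i| ≤ 1) :
    chi1 1 (dist2 x x') = 0 ∧ chi2 1 (dist2 x x') = 0 ∧ chi3 1 (dist2 x x') = 0 :=
  (chi_eq_zero ((dist2_le hn hx' hx).trans (by norm_num))).2

theorem posPoint_of_margin (hn : 0 < n) (hγ : 0 < γ) (hθ0 : 0 ≤ θ) (hθ : θ ≤ 1) (hop : OpBound g 3)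
    (hx : ∀ i, |x i| < 1) (hm : ∀ v, γ * ∑ i, v i ^ 2 ≤ Stability.hess θ g x v) :
    PosPoint θ γ 1 g x x where
  pos := hn
  γpos := hγ
  θnonneg := hθ0
  θle := hθ
  centre i := (hx i).le
  op := hop
  mem := hx
  hess v := by
    obtain ⟨h1, h2, -⟩ := penalty_off hn (fun i => (hx i).le) fun i => (hx i).le
    rw [hessC_eq, h1, h2]
    simpa using hm v

theorem sol_eq_resp (hn : 0 < n) (hx : ∀ i, |x i| ≤ 1) (w : Fin n → ℝ) :
    sol θ g x 1 x w = resp θ g x *ᵥ w := by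
  obtain ⟨h1, h2, -⟩ := penalty_off hn hx hx
  simp [sol, resp, hessCMat, h1, h2]

theorem stepPhi_eq_stepMain (hn : 0 < n) (hx : ∀ i, |x i| ≤ 1) :
    stepMain θ g x 1 δ x d = stepPhi θ g x δ d := by
  obtain ⟨-, h2, h3⟩ := penalty_off hn hx hx
  rw [stepMain, stepPhi, sol_eq_resp hn hx, sol_eq_resp hn hx]
  refine congrArg (resp θ g x *ᵥ ·) (funext fun i => ?_)
  simp only [stepRhs, stepFirst, thetaDir, bF, nl2, h2, h3, ← sq, mul_comm (x _) (_ : ℝ)]
  ring

/-- The constant of the first order bound. -/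
noncomputable def dispC (γ : ℝ) : ℝ := stepC 1 γ

/-- Displacement of a critical point: first order bound and the quadratic approximation. -/
theorem expand (hγ : 0 < γ) (hn : 0 < n) (hop : OpBound g 3) (hδ : 0 ≤ δ) (hδ1 : δ ≤ 1)
    (hθ0 : 0 ≤ θ) (hθ : θ ≤ 1) (hB : BallMargin θ g γ r m) (hx : IsCrit θ g y x)
    (hx' : IsCrit (θ - δ) g (fun i => y i + d i) x')
    (hd : ∑ i, (x i - m i) ^ 2 ≤ r * n) (hd' : ∑ i, (x' i - m i) ^ 2 ≤ r * n) :
    nrm (fun i => x' i - x i) ≤ dispC γ * stepSize δ d ∧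
      nrm (fun i => x' i - x i - stepPhi θ g x δ d i) ≤
        expandC 1 γ * n * (stepSize δ d ^ 3 + δ * stepSize δ d) := by
  have P := posPoint_of_margin hn hγ hθ0 hθ hop hx.1 (hB x hx.1 hd)
  have hxc : ∀ i, |x i| ≤ 1 := fun i => (hx.1 i).le
  have hF : ∀ (t : ℝ) (z : Fin n → ℝ), (∀ i, |z i| < 1) → ∀ (c : Fin n → ℝ) i,
      slope (z i) + nlF t g x 1 z i - c i = gradTap t g c z i := fun t z hz c i => by
    rw [nlF, (penalty_off hn hxc fun j => (hz j).le).1, gradTap]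
    ring
  have e : ∀ i, slope (x i) + nlF θ g x 1 x i = y i := fun i =>
    sub_eq_zero.1 ((hF θ x hx.1 y i).trans (hx.2 i))
  have e' : ∀ i, slope (x' i) + nlF (θ - δ) g x 1 x' i = y i + d i := fun i =>
    sub_eq_zero.1 ((hF (θ - δ) x' hx'.1 (fun j => y j + d j) i).trans (hx'.2 i))
  have hmono : γ * ∑ i, (x' i - x i) ^ 2 ≤ ∑ i, ((slope (x' i) + nlF θ g x 1 x' i) -
      (slope (x i) + nlF θ g x 1 x i)) * (x' i - x i) := by
    refine (grad_mono (y := y) hB hx.1 hx'.1 hd hd').trans_eq (Finset.sum_congr rfl fun i _ => ?_)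
    rw [← hF θ x hx.1 y i, ← hF θ x' hx'.1 y i]
    ring
  refine ⟨(step_bounds P hx'.1 e e' hmono hδ hδ1).1, ?_⟩
  rw [← stepPhi_eq_stepMain hn hxc]
  exact T.Cell.expand P hx'.1 e e' hmono hδ hδ1

/-- The constant of the crude bound on the approximate displacement. -/
noncomputable def phiC (γ : ℝ) : ℝ := (5 + lipC 1 / γ ^ 2 + solC 1 γ ^ 2) / γ

/-- A crude bound on the approximate displacement, with no smallness. -/
theorem nrm_stepPhi_le (hn : 0 < n) (hγ : 0 < γ) (hθ0 : 0 ≤ θ) (hθ : θ ≤ 1) (hδ : 0 ≤ δ)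
    (hop : OpBound g 3) (hx : ∀ i, |x i| < 1)
    (hm : ∀ v, γ * ∑ i, v i ^ 2 ≤ Stability.hess θ g x v) (d : Fin n → ℝ) :
    nrm (stepPhi θ g x δ d) ≤ phiC γ * (stepSize δ d + stepSize δ d ^ 2) := by
  have P := posPoint_of_margin hn hγ hθ0 hθ hop hx hm
  rw [← stepPhi_eq_stepMain hn fun i => (hx i).le, stepMain]
  set a := sol θ g x 1 x d
  set L := lipC 1
  set S := solC 1 γ
  set ξ := stepSize δ d
  have hL : 0 < L := lipC_pos 1
  have hS : 1 ≤ S := solC_one_le hγ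
  have hξ0 : 0 ≤ ξ := add_nonneg (nrm_nonneg d) (by positivity)
  have hdξ : nrm d ≤ ξ := le_add_of_nonneg_right (by positivity)
  have hδξ : δ * √n ≤ ξ := le_add_of_nonneg_left (nrm_nonneg d)
  have ha : nrm a ≤ ξ / γ := by
    rw [le_div_iff₀ hγ, mul_comm]; exact (sol_bound P d).trans hdξ
  have h1 : nrm (fun i => d i + δ * bF θ g x i) ≤ 5 * ξ := by
    refine (nrm_add_le _ _).trans ?_
    have h := nrm_smul_le (a := bF θ g x) (c := δ) (C := δ) (abs_of_nonneg hδ).le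
    have h' := mul_le_mul_of_nonneg_left (bF_le hθ0 hθ hop P.abs_le) hδ
    have hdef : ξ = nrm d + δ * √n := rfl
    linarith [nrm_nonneg d]
  have h2 : nrm (fun i => x i * (a i / (1 - x i ^ 2)) ^ 2) ≤ (S * ξ) ^ 2 := by
    refine (nrm_mono (b := fun i => a i / (1 - x i ^ 2) * (a i / (1 - x i ^ 2))) fun i => ?_).trans ?_
    · rw [abs_mul, ← sq]; exact mul_le_of_le_one_left (abs_nonneg _) (P.abs_le i)
    · refine (T.Cell.nrm_mul_le _ _).trans ?_
      rw [sq]
      have h := (sol_bound_div P d).trans (mul_le_mul_of_nonneg_left hdξ (by linarith))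
      exact mul_le_mul h h (nrm_nonneg _) (by positivity)
  have h3 : nrm (fun i => nl2 θ x 1 x a a i / 2) ≤ L * (ξ / γ) ^ 2 := by
    refine (nrm_mono (b := nl2 θ x 1 x a a) fun i => ?_).trans ((nl2_le hn hθ0 hθ P.abs_le P.abs_le a a).trans ?_)
    · rw [abs_div, abs_two]; linarith [abs_nonneg (nl2 θ x 1 x a a i)]
    · rw [mul_assoc, ← sq]
      exact mul_le_mul_of_nonneg_left (pow_le_pow_left₀ (nrm_nonneg _) ha 2) hL.le
  set w := fun i => d i + δ * bF θ g x i - x i * (a i / (1 - x i ^ 2)) ^ 2 - nl2 θ x 1 x a a i / 2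
  have hw : nrm w ≤ (5 + L / γ ^ 2 + S ^ 2) * (ξ + ξ ^ 2) := by
    refine (nrm_sub_le _ _).trans ((add_le_add ((nrm_sub_le _ _).trans (add_le_add h1 h2)) h3).trans ?_)
    have t1 : 0 ≤ L / γ ^ 2 * ξ := by positivity
    have t2 : 0 ≤ S ^ 2 * ξ := by positivity
    rw [show L * (ξ / γ) ^ 2 = L / γ ^ 2 * ξ ^ 2 by ring]
    nlinarith [sq_nonneg ξ]
  rw [phiC, div_mul_eq_mul_div, le_div_iff₀ hγ, mul_comm]
  exact (sol_bound P w).trans hw

end Vale.Agent.P150.Full.E
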