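import Vale.Agent.P150.Full.E.Pins
import Vale.Agent.P150.Beyond.Convexity
import Vale.Agent.P150.Beyond.Channel.Run

/-!
# P150 part E, E5: from a bound on the log-Laplace transform to a good field

If `log E exp (v.(σ - m))` is at most `|v|²/γ + R |v|` for the `v` of squared length at most `ε n`,
entropy controls the change of the magnetisations up to a constant and the covariance is bounded.
-/

open Finset MeasureTheory Real
open Vale.Agent.P150.Fast
open Vale.Agent.P150.Beyond Vale.Agent.P150.Beyond.Stability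
open Vale.Agent.P150.Fast.Ent (ent lin mag logZ phi)

namespace Vale.Agent.P150.Full.E

variable {n : ℕ} {J : Fin n → Fin n → ℝ} {y : Fin n → ℝ}

/-- The quadratic plus linear bound on the log-Laplace transform in a ball. -/
def LaplaceBound (J : Fin n → Fin n → ℝ) (y : Fin n → ℝ) (γ R ρ : ℝ) : Prop :=
  ∀ v : Fin n → ℝ, ∑ i, v i ^ 2 ≤ ρ →
    logZ J (fun i => y i + v i) - logZ J y - ∑ i, v i * mag J y i ≤
      (∑ i, v i ^ 2) / γ + R * √(∑ i, v i ^ 2)

/-- The constant of a good field. -/
noncomputable def fieldK (γ R ε : ℝ) : ℝ :=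
  (1 + 1 / γ + R) ^ 2 + 4 / ε + 4 * Real.exp (1 / γ + R)

theorem fieldK_pos {γ R ε : ℝ} (hε : 0 < ε) : 0 < fieldK γ R ε := by
  unfold fieldK; positivity

theorem var_lin_of_laplace {γ R ρ : ℝ} (hL : LaplaceBound J y γ R ρ) (hρ : 1 ≤ ρ) (v : Fin n → ℝ) :
    var J y (lin v) ≤ 4 * Real.exp (1 / γ + R) * ∑ i, v i ^ 2 := by
  set S := ∑ i, v i ^ 2 with hS
  rcases (show 0 ≤ S from Finset.sum_nonneg fun i _ => sq_nonneg _).eq_or_lt with h0 | h0
  · have hv : ∀ i, v i = 0 := fun i => by
      have := (Finset.sum_eq_zero_iff_of_nonneg fun j _ => sq_nonneg (v j)).1 h0.symm i (mem_univ i)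
      simpa using this
    simp [var, mean, lin, hv, ← h0]
  set u : Fin n → ℝ := fun i => v i / √S with hu
  have hs : 0 < √S := Real.sqrt_pos.2 h0
  have hu2 : ∑ i, u i ^ 2 = 1 := by
    simp only [hu, div_pow, Real.sq_sqrt h0.le, ← Finset.sum_div]
    exact div_self h0.ne'
  set c := ∑ i, u i * mag J y i with hc
  have key : ∀ s : ℝ, s ^ 2 = 1 →
      mean J y (fun x => Real.exp (s * (lin u x - c))) ≤ Real.exp (1 / γ + R) := fun s hs1 => by
    have h := hL (fun i => s * u i) (by
      simp only [mul_pow, hs1, one_mul, hu2]; exact hρ)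
    simp only [mul_pow, hs1, one_mul, hu2, Real.sqrt_one, mul_one] at h
    have e : (fun x => Real.exp (s * (lin u x - c))) =
        fun x => Real.exp (-(s * c)) * Real.exp (lin (fun i => s * u i) x) := funext fun x => by
      rw [← Real.exp_add, mul_sub, lin, lin, Finset.mul_sum]
      congr 1
      simp only [mul_assoc]
      ring
    rw [e, mean_smul, Ent.mean_exp_lin, ← Real.exp_add]
    refine Real.exp_le_exp.2 ?_
    have e2 : ∑ i, s * u i * mag J y i = s * c := by
      rw [hc, Finset.mul_sum]; exact Finset.sum_congr rfl fun i _ => mul_assoc _ _ _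
    linarith
  have hmain : mean J y (fun x => (lin u x - c) ^ 2) ≤ 4 * Real.exp (1 / γ + R) := by
    refine (mean_le_mean y (g := fun x => 2 * (Real.exp (1 * (lin u x - c)) + Real.exp ((-1) * (lin u x - c))))
      fun x => ?_).trans ?_
    · set X := lin u x - c
      rcases le_total 0 X with hX | hX
      · have := Real.quadratic_le_exp_of_nonneg hX
        have := Real.add_one_le_exp (-1 * X)
        rw [one_mul]
        nlinarith [Real.exp_pos (-1 * X), sq_nonneg X]
      · have := Real.quadratic_le_exp_of_nonneg (neg_nonneg.2 hX)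
        have := Real.add_one_le_exp (1 * X)
        rw [neg_one_mul]
        nlinarith [Real.exp_pos (1 * X), sq_nonneg X]
    · rw [mean_smul, mean_add]
      linarith [key 1 (one_pow 2), key (-1) (by norm_num)]
  have e : var J y (lin v) = S * mean J y (fun x => (lin u x - c) ^ 2) := by
    rw [var, ← mean_smul, Ent.mean_lin]
    refine congrArg _ (funext fun x => ?_)
    have e1 : lin v x - ∑ i, v i * mag J y i = √S * (lin u x - c) := by
      simp only [hc, lin, hu, mul_sub, Finset.mul_sum]
      congr 1 <;> exact Finset.sum_congr rfl fun i _ => by field_simp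
    rw [e1, mul_pow, Real.sq_sqrt h0.le]
  rw [e]
  linarith [mul_le_mul_of_nonneg_left hmain h0.le]

/-- A good field from the bound on the log-Laplace transform. -/
theorem goodField_of_laplace {θ γ R ε : ℝ} {g : Edge n → ℝ} (hR : 0 ≤ R) (hε : 0 < ε)
    (hn : 1 ≤ ε * n) (hL : LaplaceBound (skMat n θ g) y γ R (ε * n)) :
    GoodField θ g (fieldK γ R ε) y := by
  set J := skMat n θ g
  have hK : (1 + 1 / γ + R) ^ 2 ≤ fieldK γ R ε ∧ 4 / ε ≤ fieldK γ R ε ∧
      4 * Real.exp (1 / γ + R) ≤ fieldK γ R ε := by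
    have h1 : 0 ≤ (1 + 1 / γ + R) ^ 2 := sq_nonneg _
    have h2 : 0 ≤ 4 / ε := by positivity
    have h3 := (Real.exp_pos (1 / γ + R)).le
    unfold fieldK
    refine ⟨?_, ?_, ?_⟩ <;> linarith
  refine ⟨fun f hf => ?_, fun v => (var_lin_of_laplace hL hn v).trans
    (mul_le_mul_of_nonneg_right hK.2.2 (Finset.sum_nonneg fun i _ => sq_nonneg _))⟩
  set M := mean J y f
  have hM : 0 < M := Ent.mean_pos hf
  have hf' : ∀ x, 0 < M⁻¹ * f x := fun x => mul_pos (inv_pos.2 hM) (hf x)
  have h1 : mean J y (fun x => M⁻¹ * f x) = 1 := by rw [mean_smul, inv_mul_cancel₀ hM.ne']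
  set H := M⁻¹ * ent J y f with hH
  have he : mean J y (fun x => phi (M⁻¹ * f x)) = H := by
    rw [hH, ← ent_smul y (inv_pos.2 hM) hf, ent, h1]
    simp [phi]
  have hH0 : 0 ≤ H := mul_nonneg (inv_nonneg.2 hM.le) (ent_nonneg hf)
  set d : Fin n → ℝ := fun i => M⁻¹ * magShift J y f i with hd
  have hd' : ∀ i, mean J y (fun x => M⁻¹ * f x * spin (x i)) - mag J y i = d i := fun i => by
    simp only [hd, magShift, mul_assoc, mean_smul, mul_sub]
    rw [← mul_assoc M⁻¹, inv_mul_cancel₀ hM.ne', one_mul]
  set Q := ∑ i, d i ^ 2 with hQ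
  have hQ0 : 0 ≤ Q := Finset.sum_nonneg fun i _ => sq_nonneg _
  have hd2 : Q ≤ 4 * n := by
    refine (Finset.sum_le_sum fun i _ => ?_).trans_eq (by simp; ring : ∑ _i : Fin n, (4 : ℝ) = 4 * n)
    have a : |mean J y (fun x => M⁻¹ * f x * spin (x i))| ≤ 1 := by
      rw [abs_le, ← h1]
      constructor
      · rw [neg_le, ← neg_one_mul, ← mean_smul]
        refine mean_le_mean y fun x => ?_
        rcases spin_cases (x i) with e | e <;> rw [e] <;> linarith [hf' x]
      · refine mean_le_mean y fun x => ?_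
        rcases spin_cases (x i) with e | e <;> rw [e] <;> linarith [hf' x]
    have b : |d i| ≤ 2 := by
      rw [← hd']
      exact (abs_sub _ _).trans (by linarith [(Ent.abs_mag_lt (J := J) (h := y) i).le])
    rw [← sq_abs]
    exact (pow_le_pow_left₀ (abs_nonneg _) b 2).trans_eq (by norm_num)
  have hkey : Q ≤ fieldK γ R ε * (H + 1) := by
    rcases le_or_gt (H + 1) (ε * n) with hs | hs
    · rcases hQ0.eq_or_lt with h0 | h0
      · rw [← h0]; exact mul_nonneg (fieldK_pos hε).le (by linarith)
      set s := √(H + 1) with hsd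
      have hs1 : 1 ≤ s := by rw [hsd]; exact Real.one_le_sqrt.2 (by linarith)
      have hs2 : s ^ 2 = H + 1 := Real.sq_sqrt (by linarith)
      set q := √Q with hqd
      have hq : 0 < q := Real.sqrt_pos.2 h0
      have hq2 : q ^ 2 = Q := Real.sq_sqrt hQ0
      have hv : ∑ i, (s / q * d i) ^ 2 = s ^ 2 := by
        simp only [mul_pow, ← Finset.mul_sum, ← hQ, div_pow, ← hq2]
        field_simp
      have hl := hL (fun i => s / q * d i) (hv.le.trans (hs2.le.trans hs))
      rw [hv, Real.sqrt_sq (by linarith)] at hl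
      have hdual := Ent.dual_le (J := J) (h := y) (fun i => s / q * d i) hf' h1
      rw [he] at hdual
      have e1 : ∑ i, s / q * d i * mean J y (fun x => M⁻¹ * f x * spin (x i)) -
          ∑ i, s / q * d i * mag J y i = s * q := by
        rw [← Finset.sum_sub_distrib]
        have : ∀ i, s / q * d i * mean J y (fun x => M⁻¹ * f x * spin (x i)) -
            s / q * d i * mag J y i = s / q * d i ^ 2 := fun i => by rw [← mul_sub, hd']; ring
        rw [Finset.sum_congr rfl fun i _ => this i, ← Finset.mul_sum, ← hQ, ← hq2]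
        field_simp
      have h3 : s * q ≤ s * ((1 + 1 / γ + R) * s) := by
        have : (R * s) ≤ R * s * s := le_mul_of_one_le_right (by positivity) hs1
        have e : s * ((1 + 1 / γ + R) * s) = s ^ 2 + s ^ 2 / γ + R * s * s := by ring
        rw [e]
        linarith
      have h4 : q ≤ (1 + 1 / γ + R) * s := le_of_mul_le_mul_left h3 (by linarith)
      rw [← hq2]
      refine (pow_le_pow_left₀ hq.le h4 2).trans ?_
      rw [mul_pow, hs2]
      exact mul_le_mul_of_nonneg_right hK.1 (by linarith)
    · refine hd2.trans (le_trans ?_ (mul_le_mul_of_nonneg_right hK.2.1 (by linarith)))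
      rw [div_mul_eq_mul_div, le_div_iff₀ hε]
      linarith
  have e2 : ∑ i, magShift J y f i ^ 2 = M ^ 2 * Q := by
    rw [hQ, Finset.mul_sum]
    exact Finset.sum_congr rfl fun i _ => by simp only [hd]; field_simp
  rw [e2]
  refine (mul_le_mul_of_nonneg_left hkey (sq_nonneg M)).trans_eq ?_
  rw [hH]
  field_simp
  rfl

end Vale.Agent.P150.Full.E
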