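import Vale.Agent.P150.Full.E.Good.Defs
import Vale.Agent.P150.Full.T.Cell.Line

/-!
# P150 part E, E5: linear algebra at a point with a margin

The Hessian is invertible, its inverse is symmetric and bounded by `1 / γ`, and bounded by `7 / γ`
after or before a division by `1 - x²`.
-/

open Finset Real Matrix
open Vale.Agent.P150.Fast
open Vale.Agent.P150.Beyond Vale.Agent.P150.Beyond.Stability
open Vale.Agent.P150.Full.T (hessMat resp coupMat)
open Vale.Agent.P150.Full.T.Cell (nrm nrm_nonneg nrm_sq nrm_add_le nrm_sub_le nrm_smul_le nrm_cube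
  abs_sum_mul_le nrm_couple_le)

namespace Vale.Agent.P150.Full.E

variable {n : ℕ} {θ γ : ℝ} {g : Edge n → ℝ} {x : Fin n → ℝ}

theorem hessMat_mulVec (θ : ℝ) (g : Edge n → ℝ) (x v : Fin n → ℝ) (i : Fin n) :
    (hessMat θ g x *ᵥ v) i = v i / (1 - x i ^ 2) + hessRest θ g x v i := by
  have e1 : (coupMat g *ᵥ v) i = couple g v i := rfl
  have e2 : (Matrix.vecMulVec x x *ᵥ v) i = (∑ j, x j * v j) * x i := by
    simp only [Matrix.mulVec, dotProduct, Matrix.vecMulVec_apply, mul_assoc, ← Finset.mul_sum]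
    rw [mul_comm]
  simp only [hessMat, Matrix.sub_mulVec, Matrix.smul_mulVec, Pi.sub_apply, Pi.smul_apply,
    Matrix.mulVec_diagonal, e1, e2, smul_eq_mul, hessRest]
  ring

theorem sum_mul_hessMat (θ : ℝ) (g : Edge n → ℝ) (x v : Fin n → ℝ) :
    ∑ i, v i * (hessMat θ g x *ᵥ v) i = Stability.hess θ g x v := by
  have e : ∀ i, v i * (hessMat θ g x *ᵥ v) i = v i ^ 2 / (1 - x i ^ 2) +
      θ ^ 2 * (1 - qOf x) * v i ^ 2 - θ * (v i * couple g v i) -
      2 * θ ^ 2 / n * (∑ j, x j * v j) * (x i * v i) := fun i => by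
    rw [hessMat_mulVec, hessRest]; ring
  simp only [e, Finset.sum_sub_distrib, Finset.sum_add_distrib, ← Finset.mul_sum, Stability.hess]
  have eb : ∑ i, v i * couple g v i = ∑ i, ∑ j, skMat n 1 g i j * v i * v j :=
    Finset.sum_congr rfl fun i _ => by
      simp only [couple, Finset.mul_sum]
      exact Finset.sum_congr rfl fun j _ => by ring
  rw [eb]
  ring

theorem hessMat_isSymm (θ : ℝ) (g : Edge n → ℝ) (x : Fin n → ℝ) : (hessMat θ g x).IsSymm := by
  unfold hessMat
  refine ((Matrix.isSymm_diagonal _).sub ?_).sub ?_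
  · exact (Matrix.IsSymm.ext fun i j => (isCoupling_skMat n 1 g).1 j i).smul _
  · exact (Matrix.IsSymm.ext fun i j => by simp [Matrix.vecMulVec_apply, mul_comm]).smul _

theorem hessMat_isUnit (hγ : 0 < γ) (hm : ∀ v, γ * ∑ i, v i ^ 2 ≤ Stability.hess θ g x v) :
    IsUnit (hessMat θ g x).det := by
  rw [← Matrix.isUnit_iff_isUnit_det, ← Matrix.mulVec_injective_iff_isUnit]
  intro u v huv
  have h0 : hessMat θ g x *ᵥ (u - v) = 0 := by rw [Matrix.mulVec_sub]; exact sub_eq_zero.2 huv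
  have h := hm (u - v)
  rw [← sum_mul_hessMat] at h
  simp only [h0, Pi.zero_apply, mul_zero, Finset.sum_const_zero] at h
  have hs : ∑ i, (u - v) i ^ 2 = 0 :=
    le_antisymm (by
      by_contra hc
      have := mul_pos hγ (not_le.1 hc)
      linarith) (Finset.sum_nonneg fun i _ => sq_nonneg _)
  funext i
  have := (Finset.sum_eq_zero_iff_of_nonneg fun j _ => sq_nonneg ((u - v) j)).1 hs i (mem_univ i)
  simpa [sub_eq_zero] using this

theorem nrm_hessRest_le (hθ0 : 0 ≤ θ) (hθ1 : θ ≤ 1) (hop : OpBound g 3) (hx : ∀ i, |x i| < 1)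
    (v : Fin n → ℝ) : nrm (hessRest θ g x v) ≤ 6 * nrm v := by
  have hq := T.Cell.qOf_le_one fun i => (hx i).le
  have hq0 := T.Cell.qOf_nonneg x
  have hθ2 : θ ^ 2 ≤ 1 := pow_le_one₀ hθ0 hθ1
  have h1 : nrm (fun i => θ ^ 2 * (1 - qOf x) * v i) ≤ 1 * nrm v := nrm_smul_le (by
    rw [abs_of_nonneg (mul_nonneg (sq_nonneg θ) (by linarith))]
    exact mul_le_one₀ hθ2 (by linarith) (by linarith))
  have h2 : nrm (fun i => θ * couple g v i) ≤ 1 * nrm (couple g v) :=
    nrm_smul_le (by rwa [abs_of_nonneg hθ0])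
  have h3 : nrm (fun i => 2 * θ ^ 2 / n * (∑ j, x j * v j) * x i) ≤ 2 * nrm v := by
    refine (nrm_smul_le (C := 2 * θ ^ 2 / n * (√n * nrm v)) ?_).trans ?_
    · rw [abs_mul, abs_of_nonneg (by positivity : (0 : ℝ) ≤ 2 * θ ^ 2 / n)]
      exact mul_le_mul_of_nonneg_left ((abs_sum_mul_le _ _).trans
        (mul_le_mul_of_nonneg_right (nrm_cube fun i => (hx i).le) (nrm_nonneg v))) (by positivity)
    · refine (mul_le_mul_of_nonneg_left (nrm_cube fun i => (hx i).le) (by
        have := nrm_nonneg v; positivity)).trans ?_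
      rcases Nat.eq_zero_or_pos n with rfl | hn
      · simpa using nrm_nonneg v
      · have e : 2 * θ ^ 2 / n * (√n * nrm v) * √n = 2 * θ ^ 2 * nrm v := by
          have : √(n : ℝ) * √n = n := Real.mul_self_sqrt n.cast_nonneg
          rw [show 2 * θ ^ 2 / n * (√n * nrm v) * √n = 2 * θ ^ 2 * nrm v * (√n * √n / n) by ring, this,
            div_self (by exact_mod_cast hn.ne'), mul_one]
        rw [e]
        exact mul_le_mul_of_nonneg_right (by linarith) (nrm_nonneg v)
  have e : nrm (hessRest θ g x v) ≤ nrm (fun i => θ ^ 2 * (1 - qOf x) * v i) +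
      nrm (fun i => θ * couple g v i) + nrm (fun i => 2 * θ ^ 2 / n * (∑ j, x j * v j) * x i) := by
    refine (nrm_sub_le (fun i => θ ^ 2 * (1 - qOf x) * v i - θ * couple g v i) _).trans ?_
    exact add_le_add (nrm_sub_le _ _) le_rfl
  linarith [nrm_couple_le hop v]

theorem respLinear : RespLinear := by
  intro n θ γ g x hn hθ0 hθ1 hγ hγ1 hop hx hm
  have hu := hessMat_isUnit hγ hm
  have hinv : ∀ v : Fin n → ℝ, hessMat θ g x *ᵥ (resp θ g x *ᵥ v) = v := fun v => by
    rw [resp, Matrix.mulVec_mulVec, Matrix.mul_nonsing_inv _ hu, Matrix.one_mulVec]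
  have hinv' : ∀ v : Fin n → ℝ, resp θ g x *ᵥ (hessMat θ g x *ᵥ v) = v := fun v => by
    rw [resp, Matrix.mulVec_mulVec, Matrix.nonsing_inv_mul _ hu, Matrix.one_mulVec]
  have hsymm : (resp θ g x).IsSymm := by
    show (resp θ g x)ᵀ = resp θ g x
    rw [resp, Matrix.transpose_nonsing_inv, (hessMat_isSymm θ g x).eq]
  have hF : ∀ v : Fin n → ℝ, nrm (resp θ g x *ᵥ v) ≤ nrm v / γ := fun v => by
    set u := resp θ g x *ᵥ v
    have h := hm u
    rw [← sum_mul_hessMat, hinv, ← nrm_sq] at h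
    have h2 := (le_abs_self _).trans (abs_sum_mul_le u v)
    rw [le_div_iff₀ hγ]
    rcases (nrm_nonneg u).eq_or_lt with h0 | h0
    · rw [← h0, zero_mul]; exact nrm_nonneg v
    · refine le_of_mul_le_mul_left ?_ h0
      nlinarith
  have hD : ∀ v : Fin n → ℝ, nrm (fun i => (resp θ g x *ᵥ v) i / (1 - x i ^ 2)) ≤ 7 / γ * nrm v :=
    fun v => by
    set u := resp θ g x *ᵥ v with hud
    have e : (fun i => u i / (1 - x i ^ 2)) = fun i => v i - hessRest θ g x u i := funext fun i => by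
      have := congrFun (hinv v) i
      rw [hessMat_mulVec, ← hud] at this
      linarith
    rw [e]
    refine (nrm_sub_le v (hessRest θ g x u)).trans ?_
    have h1 : nrm v ≤ nrm v / γ := by
      rw [le_div_iff₀ hγ]
      exact mul_le_of_le_one_right (nrm_nonneg v) hγ1
    have h2 := nrm_hessRest_le hθ0 hθ1 hop hx u
    have h3 : nrm u ≤ nrm v / γ := hF v
    have : 7 / γ * nrm v = 7 * (nrm v / γ) := by ring
    linarith
  refine ⟨hsymm, hessMat_mulVec θ g x, fun v => ⟨hinv v, hinv' v⟩, hF,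
    nrm_hessRest_le hθ0 hθ1 hop hx, hD, fun v => ?_⟩
  show nrm (resp θ g x *ᵥ fun j => v j / (1 - x j ^ 2)) ≤ 7 / γ * nrm v
  set a : Fin n → ℝ := fun j => v j / (1 - x j ^ 2) with ha
  set w := resp θ g x *ᵥ a with hw
  have key : nrm w ^ 2 = ∑ i, (resp θ g x *ᵥ w) i / (1 - x i ^ 2) * v i := by
    have e : w ⬝ᵥ (resp θ g x *ᵥ a) = (resp θ g x *ᵥ w) ⬝ᵥ a := by
      rw [Matrix.dotProduct_mulVec, ← Matrix.mulVec_transpose, hsymm.eq]
    rw [← hw] at e
    rw [nrm_sq]
    refine (Finset.sum_congr rfl fun i _ => sq (w i)).trans (e.trans ?_)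
    exact Finset.sum_congr rfl fun i _ => by simp only [ha]; ring
  have h2 := (le_abs_self _).trans (abs_sum_mul_le (fun i => (resp θ g x *ᵥ w) i / (1 - x i ^ 2)) v)
  rw [← key] at h2
  have h3 := h2.trans (mul_le_mul_of_nonneg_right (hD w) (nrm_nonneg v))
  rcases (nrm_nonneg w).eq_or_lt with h0 | h0
  · rw [← h0]; have := nrm_nonneg v; positivity
  · refine le_of_mul_le_mul_left ?_ h0
    nlinarith

end Vale.Agent.P150.Full.E
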